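import Mathlib

/-!
If every point of one closed ball has a twin in the other one, at the same distances from the
sphere, then an isometry of the unit spheres is the restriction of a linear isometry.
-/

open Metric Set

namespace Vale.Agent.P084.Types

variable {X Y : Type*} [NormedAddCommGroup X] [NormedSpace ℝ X] [NormedAddCommGroup Y]
  [NormedSpace ℝ Y]

/-- `q` is at the same distance from `f x` as `e` is from `x`, for every `x` in the sphere. -/
def Twin (f : sphere (0 : X) 1 → sphere (0 : Y) 1) (e : X) (q : Y) : Prop :=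
  ∀ x : sphere (0 : X) 1, ‖q - f x‖ = ‖e - x‖

lemma exists_exit {e u : X} (he : ‖e‖ ≤ 1) (hu : u ≠ 0) :
    ∃ α : ℝ, 0 ≤ α ∧ ‖e + α • u‖ = 1 := by
  have hu' : 0 < ‖u‖ := norm_pos_iff.2 hu
  have hc : ContinuousOn (fun α : ℝ => ‖e + α • u‖) (Icc 0 (2 / ‖u‖)) := by fun_prop
  have hb : 1 ≤ ‖e + (2 / ‖u‖) • u‖ := by
    have h := norm_sub_le (e + (2 / ‖u‖) • u) e
    rw [add_sub_cancel_left, norm_smul, Real.norm_eq_abs, abs_of_pos (by positivity),
      div_mul_cancel₀ _ hu'.ne'] at h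
    linarith
  obtain ⟨α, hα, h⟩ := intermediate_value_Icc (by positivity) hc
    (show (1 : ℝ) ∈ Icc (‖e + (0 : ℝ) • u‖) (‖e + (2 / ‖u‖) • u‖) from ⟨by simpa using he, hb⟩)
  exact ⟨α, hα.1, h⟩

lemma norm_sub_le_twins {f : sphere (0 : X) 1 → sphere (0 : Y) 1} (hf : Isometry f)
    {e₁ e₂ : X} {q₁ q₂ : Y} (he₁ : ‖e₁‖ ≤ 1) (he₂ : ‖e₂‖ ≤ 1) (h₁ : Twin f e₁ q₁)
    (h₂ : Twin f e₂ q₂) : ‖e₁ - e₂‖ ≤ ‖q₁ - q₂‖ := by
  rcases eq_or_ne e₁ e₂ with rfl | hne
  · simp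
  obtain ⟨α, hα, hz⟩ := exists_exit he₁ (sub_ne_zero.2 hne)
  obtain ⟨β, hβ, hw⟩ := exists_exit he₂ (sub_ne_zero.2 hne.symm)
  set z : sphere (0 : X) 1 := ⟨_, mem_sphere_zero_iff_norm.2 hz⟩ with hzdef
  set w : sphere (0 : X) 1 := ⟨_, mem_sphere_zero_iff_norm.2 hw⟩ with hwdef
  have d1 : ‖(z : X) - e₁‖ = α * ‖e₁ - e₂‖ := by
    rw [hzdef]; simp [norm_smul, abs_of_nonneg hα]
  have d2 : ‖(w : X) - e₂‖ = β * ‖e₁ - e₂‖ := by
    rw [hwdef]; simp [norm_smul, abs_of_nonneg hβ, norm_sub_rev]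
  have d3 : ‖(z : X) - w‖ = (α + 1 + β) * ‖e₁ - e₂‖ := by
    have : (z : X) - w = (α + 1 + β) • (e₁ - e₂) := by
      rw [hzdef, hwdef]
      module
    rw [this, norm_smul, Real.norm_eq_abs, abs_of_nonneg (by linarith)]
  have h := hf.dist_eq z w
  rw [Subtype.dist_eq, Subtype.dist_eq, dist_eq_norm, dist_eq_norm, d3] at h
  have t := norm_sub_le_norm_sub_add_norm_sub (f z : Y) q₁ (f w)
  have t' := norm_sub_le_norm_sub_add_norm_sub q₁ q₂ (f w : Y)
  rw [norm_sub_rev (f z : Y) q₁, h₁ z, norm_sub_rev e₁ _, d1, h] at t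
  rw [h₂ w, norm_sub_rev e₂ _, d2] at t'
  linarith

/-- An isometric bijection of closed unit balls preserves halves of vectors. -/
lemma ball_half (G : X → Y) (G' : Y → X) (hG : ∀ p, ‖p‖ ≤ 1 → ‖G p‖ = ‖p‖)
    (hG' : ∀ p, ‖p‖ ≤ 1 → ‖G' p‖ = ‖p‖)
    (hl : ∀ p, ‖p‖ ≤ 1 → G' (G p) = p) (hr : ∀ p, ‖p‖ ≤ 1 → G (G' p) = p)
    (hd : ∀ p q, ‖p‖ ≤ 1 → ‖q‖ ≤ 1 → ‖G p - G q‖ = ‖p - q‖) {a : X} (ha : ‖a‖ ≤ 1) :
    G ((1 / 2 : ℝ) • a) = (1 / 2 : ℝ) • G a := by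
  set K : Set X := {p | ‖p‖ = ‖a‖ / 2 ∧ ‖p - a‖ = ‖a‖ / 2}
  set K' : Set Y := {p | ‖p‖ = ‖a‖ / 2 ∧ ‖p - G a‖ = ‖a‖ / 2}
  set z := (1 / 2 : ℝ) • a
  set z' := (1 / 2 : ℝ) • G a
  have hb : ∀ p ∈ K, ‖p‖ ≤ 1 := fun p hp => by rw [hp.1]; linarith [norm_nonneg a]
  have hb' : ∀ p ∈ K', ‖p‖ ≤ 1 := fun p hp => by rw [hp.1]; linarith [norm_nonneg a]
  have hzK : z ∈ K := by
    constructor
    · simp [z, norm_smul]; ring
    · rw [show z - a = (-1 / 2 : ℝ) • a by simp only [z]; module, norm_smul]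
      norm_num; ring
  have hz'K : z' ∈ K' := by
    constructor
    · simp [z', norm_smul, hG a ha]; ring
    · rw [show z' - G a = (-1 / 2 : ℝ) • G a by simp only [z']; module, norm_smul, hG a ha]
      norm_num; ring
  have hGK : ∀ p ∈ K, G p ∈ K' := fun p hp =>
    ⟨(hG p (hb p hp)).trans hp.1, (hd p a (hb p hp) ha).trans hp.2⟩
  have hG'K : ∀ p ∈ K', G' p ∈ K := fun p hp => by
    refine ⟨(hG' p (hb' p hp)).trans hp.1, ?_⟩
    have := hd (G' p) a (by rw [hG' p (hb' p hp)]; exact hb' p hp) ha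
    rw [hr p (hb' p hp)] at this
    rw [← this]; exact hp.2
  -- the self-isometries of `K`
  let E := {e : ↥K ≃ᵢ ↥K // True}
  have hrefl : ∀ p ∈ K, a - p ∈ K := fun p hp =>
    ⟨(norm_sub_rev a p).trans hp.2, by rw [show a - p - a = -p by abel, norm_neg]; exact hp.1⟩
  have hrefl' : ∀ p ∈ K', G a - p ∈ K' := fun p hp =>
    ⟨(norm_sub_rev _ p).trans hp.2, by rw [show G a - p - G a = -p by abel, norm_neg]; exact hp.1⟩
  let R : ↥K ≃ᵢ ↥K :=
    { toFun := fun p => ⟨a - p, hrefl _ p.2⟩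
      invFun := fun p => ⟨a - p, hrefl _ p.2⟩
      left_inv := fun p => Subtype.ext (sub_sub_cancel a (p : X))
      right_inv := fun p => Subtype.ext (sub_sub_cancel a (p : X))
      isometry_toFun := Isometry.of_dist_eq fun p q => by
        simp [Subtype.dist_eq, dist_eq_norm, norm_sub_rev] }
  let R' : ↥K' ≃ᵢ ↥K' :=
    { toFun := fun p => ⟨G a - p, hrefl' _ p.2⟩
      invFun := fun p => ⟨G a - p, hrefl' _ p.2⟩
      left_inv := fun p => Subtype.ext (sub_sub_cancel (G a) (p : Y))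
      right_inv := fun p => Subtype.ext (sub_sub_cancel (G a) (p : Y))
      isometry_toFun := Isometry.of_dist_eq fun p q => by
        simp [Subtype.dist_eq, dist_eq_norm, norm_sub_rev] }
  let Φ : ↥K ≃ᵢ ↥K' :=
    { toFun := fun p => ⟨G p, hGK _ p.2⟩
      invFun := fun p => ⟨G' p, hG'K _ p.2⟩
      left_inv := fun p => Subtype.ext (hl p (hb _ p.2))
      right_inv := fun p => Subtype.ext (hr p (hb' _ p.2))
      isometry_toFun := Isometry.of_dist_eq fun p q => by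
        simpa [Subtype.dist_eq, dist_eq_norm] using hd p q (hb _ p.2) (hb _ q.2) }
  set zK : ↥K := ⟨z, hzK⟩
  have hRz : ∀ p : ↥K, dist (R p) zK = dist p zK := fun p => by
    rw [Subtype.dist_eq, Subtype.dist_eq, dist_eq_norm, dist_eq_norm, ← norm_neg]
    congr 1
    show -((a - p : X) - z) = (p : X) - z
    simp only [z]
    module
  have hR2 : ∀ p : ↥K, dist (R p) p = 2 * dist p zK := fun p => by
    rw [Subtype.dist_eq, Subtype.dist_eq, dist_eq_norm, dist_eq_norm,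
      show ((R p : ↥K) : X) - p = (-2 : ℝ) • ((p : X) - z) by
        show (a - p : X) - p = _
        simp only [z]; module, norm_smul]
    norm_num; rfl
  have key : ∀ e : ↥K ≃ᵢ ↥K, e zK = zK := by
    have : Nonempty (↥K ≃ᵢ ↥K) := ⟨IsometryEquiv.refl _⟩
    set c := ⨆ e : ↥K ≃ᵢ ↥K, dist (e zK) zK with hc
    have hbd : BddAbove (range fun e : ↥K ≃ᵢ ↥K => dist (e zK) zK) := by
      refine ⟨2, forall_mem_range.2 fun e => ?_⟩
      rw [Subtype.dist_eq, dist_eq_norm]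
      exact (norm_sub_le _ _).trans (by linarith [hb _ (e zK).2, hb _ zK.2])
    have hstep : ∀ e : ↥K ≃ᵢ ↥K,
        dist ((((e.trans R).trans e.symm).trans R) zK) zK = 2 * dist (e zK) zK := by
      intro e
      simp only [IsometryEquiv.trans_apply, hRz]
      rw [← e.dist_eq, e.apply_symm_apply, hR2]
    have : c ≤ c / 2 := ciSup_le fun e => by
      rw [le_div_iff₀' (zero_lt_two' ℝ), ← hstep]
      exact le_ciSup hbd _
    intro e
    exact dist_le_zero.1 ((le_ciSup hbd e).trans (by rw [← hc]; linarith))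
  have h := congrArg (fun p : ↥K => Φ (R p)) (key (((Φ.trans R').trans Φ.symm).trans R))
  have h1 : Φ (R (R (Φ.symm (R' (Φ zK))))) = Φ (R zK) := h
  have e1 : R (R (Φ.symm (R' (Φ zK)))) = Φ.symm (R' (Φ zK)) :=
    Subtype.ext (sub_sub_cancel a _)
  have e2 : R zK = zK := Subtype.ext (by show a - z = z; simp only [z]; module)
  rw [e1, e2, IsometryEquiv.apply_symm_apply] at h1
  have h2 : G a - G z = G z := congrArg Subtype.val h1
  show G z = (1 / 2 : ℝ) • G a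
  rw [show G a = G z + G z by rw [← eq_add_of_sub_eq h2]]
  module

/-- The criterion. -/
theorem linear_of_twins (f : sphere (0 : X) 1 → sphere (0 : Y) 1) (hf : Isometry f)
    (hs : Function.Surjective f) (h : ∀ e : X, ‖e‖ ≤ 1 → ∃ q : Y, ‖q‖ = ‖e‖ ∧ Twin f e q)
    (h' : ∀ q : Y, ‖q‖ ≤ 1 → ∃ e : X, ‖e‖ = ‖q‖ ∧ Twin f e q) :
    ∃ T : X ≃ₗᵢ[ℝ] Y, ∀ x : sphere (0 : X) 1, T (x : X) = (f x : Y) := by
  classical
  set g := Function.surjInv hs
  have hg : ∀ y, f (g y) = y := Function.surjInv_eq hs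
  have hgi : Isometry g := Isometry.of_dist_eq fun a b => by rw [← hf.dist_eq, hg, hg]
  have hsw : ∀ {e : X} {q : Y}, Twin f e q → Twin g q e := fun hT y => by
    have := hT (g y); rw [hg] at this; exact this.symm
  have hdist : ∀ {e₁ e₂ : X} {q₁ q₂ : Y}, ‖e₁‖ ≤ 1 → ‖e₂‖ ≤ 1 → ‖q₁‖ ≤ 1 → ‖q₂‖ ≤ 1 →
      Twin f e₁ q₁ → Twin f e₂ q₂ → ‖q₁ - q₂‖ = ‖e₁ - e₂‖ := fun a b c d t u =>
    le_antisymm (norm_sub_le_twins hgi c d (hsw t) (hsw u)) (norm_sub_le_twins hf a b t u)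
  choose G hGn hGt using h
  choose G' hG'n hG't using h'
  set GG : X → Y := fun e => if he : ‖e‖ ≤ 1 then G e he else 0 with hGG
  set GG' : Y → X := fun q => if hq : ‖q‖ ≤ 1 then G' q hq else 0 with hGG'
  have hn : ∀ e, ‖e‖ ≤ 1 → ‖GG e‖ = ‖e‖ := fun e he => by simp [GG, he, hGn e he]
  have hn' : ∀ q, ‖q‖ ≤ 1 → ‖GG' q‖ = ‖q‖ := fun q hq => by simp [GG', hq, hG'n q hq]
  have ht : ∀ e, ‖e‖ ≤ 1 → Twin f e (GG e) := fun e he => by simp [GG, he, hGt e he]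
  have ht' : ∀ q, ‖q‖ ≤ 1 → Twin f (GG' q) q := fun q hq => by simp [GG', hq, hG't q hq]
  have hd : ∀ p q, ‖p‖ ≤ 1 → ‖q‖ ≤ 1 → ‖GG p - GG q‖ = ‖p - q‖ := fun p q hp hq =>
    hdist hp hq ((hn p hp).trans_le hp) ((hn q hq).trans_le hq) (ht p hp) (ht q hq)
  have hr : ∀ q, ‖q‖ ≤ 1 → GG (GG' q) = q := fun q hq => by
    have hq' := (hn' q hq).trans_le hq
    have := hdist hq' hq' ((hn _ hq').trans_le hq') hq (ht _ hq') (ht' q hq)
    rwa [sub_self, norm_zero, norm_eq_zero, sub_eq_zero] at this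
  have hl : ∀ e, ‖e‖ ≤ 1 → GG' (GG e) = e := fun e he => by
    have he' := (hn e he).trans_le he
    have := hd (GG' (GG e)) e ((hn' _ he').trans_le he') he
    rw [hr _ he', sub_self, norm_zero] at this
    exact sub_eq_zero.1 (norm_eq_zero.1 this.symm)
  have hhalf : ∀ a, ‖a‖ ≤ 1 → GG ((1 / 2 : ℝ) • a) = (1 / 2 : ℝ) • GG a := fun a ha =>
    ball_half GG GG' hn hn' hl hr hd ha
  -- scale the ball map to the whole space
  set s : ℕ → ℝ := fun k => (2 : ℝ) ^ k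
  have hs0 : ∀ k, 0 < s k := fun k => by positivity
  have hsm : ∀ {Z : Type _} [NormedAddCommGroup Z] [NormedSpace ℝ Z] (x : Z) k,
      ‖(s k)⁻¹ • x‖ ≤ 1 ↔ ‖x‖ ≤ s k := fun x k => by
    rw [norm_smul, norm_inv, Real.norm_of_nonneg (hs0 k).le, inv_mul_le_iff₀ (hs0 k), mul_one]
  have hex : ∀ r : ℝ, ∃ k, r ≤ s k := fun r => by
    obtain ⟨k, hk⟩ := pow_unbounded_of_one_lt r one_lt_two
    exact ⟨k, hk.le⟩
  choose k hk using hex
  set L : X → Y := fun x => s (k ‖x‖) • GG ((s (k ‖x‖))⁻¹ • x) with hL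
  have hmono : ∀ (x : X) (i j : ℕ), ‖x‖ ≤ s i →
      s (i + j) • GG ((s (i + j))⁻¹ • x) = s i • GG ((s i)⁻¹ • x) := by
    intro x i j hx
    induction j with
    | zero => rfl
    | succ j ih =>
      have h1 : ‖x‖ ≤ s (i + j) := hx.trans (pow_le_pow_right₀ one_le_two (by omega))
      have h2 := hhalf ((s (i + j))⁻¹ • x) (by
        rw [norm_smul, norm_inv, Real.norm_of_nonneg (hs0 _).le, inv_mul_le_iff₀ (hs0 _), mul_one]
        exact h1)
      have e1 : (s (i + (j + 1)))⁻¹ • x = (1 / 2 : ℝ) • (s (i + j))⁻¹ • x := by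
        rw [smul_smul]; congr 1; simp only [s, ← add_assoc, pow_succ]; field_simp
      rw [e1, h2, ← ih, smul_smul]
      congr 1
      simp only [s, ← add_assoc, pow_succ]; ring
  have hLi : ∀ (x : X) (i : ℕ), ‖x‖ ≤ s i → L x = s i • GG ((s i)⁻¹ • x) := by
    intro x i hi
    rcases le_total (k ‖x‖) i with hle | hle <;> obtain ⟨j, hj⟩ := Nat.exists_eq_add_of_le hle
    · rw [hj]; exact (hmono x _ j (hk _)).symm
    · show s (k ‖x‖) • _ = _
      rw [hj]; exact hmono x i j hi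
  have hGG0 : GG 0 = 0 := norm_eq_zero.1 ((hn 0 (by simp)).trans norm_zero)
  have hiso : Isometry L := Isometry.of_dist_eq fun x y => by
    obtain ⟨i, hi⟩ := (⟨k (max ‖x‖ ‖y‖), hk _⟩ : ∃ i, max ‖x‖ ‖y‖ ≤ s i)
    rw [hLi x i ((le_max_left _ _).trans hi), hLi y i ((le_max_right _ _).trans hi), dist_eq_norm,
      dist_eq_norm, ← smul_sub, norm_smul, Real.norm_of_nonneg (hs0 i).le,
      hd _ _ ((hsm x i).2 ((le_max_left _ _).trans hi)) ((hsm y i).2 ((le_max_right _ _).trans hi)),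
      ← smul_sub, norm_smul, norm_inv, Real.norm_of_nonneg (hs0 i).le,
      mul_inv_cancel_left₀ (hs0 i).ne']
  have hsur : Function.Surjective L := fun y => by
    set i := k ‖y‖
    have hy : ‖(s i)⁻¹ • y‖ ≤ 1 := by
      rw [norm_smul, norm_inv, Real.norm_of_nonneg (hs0 i).le, inv_mul_le_iff₀ (hs0 i), mul_one]
      exact hk _
    refine ⟨s i • GG' ((s i)⁻¹ • y), ?_⟩
    rw [hLi _ i, inv_smul_smul₀ (hs0 i).ne', hr _ hy, smul_inv_smul₀ (hs0 i).ne']
    rw [norm_smul, Real.norm_of_nonneg (hs0 i).le, hn' _ hy]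
    exact mul_le_of_le_one_right (hs0 i).le hy
  have hL0 : L 0 = 0 := by simp [L, hGG0]
  let I : X ≃ᵢ Y := ⟨Equiv.ofBijective L ⟨hiso.injective, hsur⟩, hiso⟩
  refine ⟨I.toRealLinearIsometryEquivOfMapZero (show I 0 = 0 from hL0), fun x => ?_⟩
  show L (x : X) = f x
  have hx : ‖(x : X)‖ = 1 := mem_sphere_zero_iff_norm.1 x.2
  rw [hLi x 0 (by simp [s, hx])]
  simp only [s, pow_zero, inv_one, one_smul]
  have hft : Twin f (x : X) (f x : Y) := fun z => by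
    have := hf.dist_eq x z
    rwa [Subtype.dist_eq, Subtype.dist_eq, dist_eq_norm, dist_eq_norm] at this
  have := hdist hx.le hx.le ((hn _ hx.le).trans_le hx.le)
    (mem_sphere_zero_iff_norm.1 (f x).2).le (ht _ hx.le) hft
  rwa [sub_self, norm_zero, norm_eq_zero, sub_eq_zero] at this

end Vale.Agent.P084.Types
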