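import Vale.Agent.P084.Types.Twins

/-!
Infinite-dimensional closed subspaces of `l_p` sums of finite-dimensional spaces have `l_p` types.
-/

open Metric Set Filter Topology
open scoped ENNReal lp

namespace Vale.Agent.P084.Types

lemma exists_lim {Z : Type*} [MetricSpace Z] [ProperSpace Z] (U : Ultrafilter ℕ) (x : ℕ → Z)
    {c : Z} {C : ℝ} (h : ∀ n, dist (x n) c ≤ C) : ∃ a, Tendsto x (U : Filter ℕ) (𝓝 a) := by
  obtain ⟨a, -, ha⟩ := (isCompact_closedBall c C).ultrafilter_le_nhds (U.map x)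
    (tendsto_principal.2 (.of_forall fun n => mem_closedBall.2 (h n)))
  exact ⟨a, ha⟩

variable {ι : Type*} {E : ι → Type*} [∀ i, NormedAddCommGroup (E i)] [∀ i, NormedSpace ℝ (E i)]
  {p : ℝ≥0∞} [hp1 : Fact (1 ≤ p)]

lemma toReal_pos' (hp : p ≠ ⊤) : 0 < p.toReal :=
  ENNReal.toReal_pos (zero_lt_one.trans_le hp1.out).ne' hp

/-- The norm splits along a coordinatewise null sequence. -/
lemma split (hp : p ≠ ⊤) (U : Ultrafilter ℕ) (w : ℕ → lp E p)
    (hw : ∀ i, Tendsto (fun n => w n i) (U : Filter ℕ) (𝓝 0)) {r : ℝ}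
    (hr : Tendsto (fun n => ‖w n‖) (U : Filter ℕ) (𝓝 r)) (c : lp E p) :
    Tendsto (fun n => ‖w n + c‖) (U : Filter ℕ)
      (𝓝 ((‖c‖ ^ p.toReal + r ^ p.toReal) ^ (1 / p.toReal))) := by
  classical
  set q := p.toReal
  have hq : 0 < q := toReal_pos' hp
  set L : lp E p → ℝ := fun c => (‖c‖ ^ q + r ^ q) ^ (1 / q)
  set T : Finset ι → lp E p := fun s => ∑ i ∈ s, lp.single p i (c i)
  have hfin : ∀ s, Tendsto (fun n => ‖w n + T s‖) (U : Filter ℕ) (𝓝 (L (T s))) := by
    intro s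
    have hTi : ∀ i ∈ s, T s i = c i := fun i hi => by
      simp only [T, lp.coeFn_sum, Finset.sum_apply, lp.coeFn_single, Finset.sum_pi_single, if_pos hi]
    have key : ∀ n, ‖w n + T s‖ ^ q =
        ‖w n‖ ^ q + ∑ i ∈ s, (‖w n i + c i‖ ^ q - ‖w n i‖ ^ q) := by
      intro n
      have h1 := lp.norm_sub_norm_compl_sub_single hq (w n + T s) s
      have h2 := lp.norm_sub_norm_compl_sub_single hq (w n) s
      have e : w n + T s - ∑ i ∈ s, lp.single p i ((w n + T s) i) =
          w n - ∑ i ∈ s, lp.single p i (w n i) := by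
        have : ∑ i ∈ s, lp.single p i ((w n + T s) i) =
            ∑ i ∈ s, lp.single p i (w n i) + T s := by
          rw [← Finset.sum_add_distrib]
          refine Finset.sum_congr rfl fun i hi => ?_
          rw [← lp.single_add, lp.coeFn_add, Pi.add_apply, hTi i hi]
        rw [this]
        abel
      have e2 : ∑ i ∈ s, ‖(w n + T s) i‖ ^ q = ∑ i ∈ s, ‖w n i + c i‖ ^ q :=
        Finset.sum_congr rfl fun i hi => by rw [lp.coeFn_add, Pi.add_apply, hTi i hi]
      rw [e, e2] at h1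
      rw [Finset.sum_sub_distrib]
      linarith
    have hc : ‖T s‖ ^ q = ∑ i ∈ s, ‖c i‖ ^ q := lp.norm_sum_single hq _ s
    have hlim : Tendsto (fun n => ‖w n + T s‖ ^ q) (U : Filter ℕ)
        (𝓝 (‖T s‖ ^ q + r ^ q)) := by
      rw [funext key, hc, add_comm]
      refine (hr.rpow_const (Or.inr hq.le)).add (tendsto_finsetSum _ fun i _ => ?_)
      have h1 := (((hw i).add_const (c i)).norm.rpow_const (p := q) (Or.inr hq.le)).sub
        ((hw i).norm.rpow_const (p := q) (Or.inr hq.le))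
      simpa [Real.zero_rpow hq.ne'] using h1
    have h := hlim.rpow_const (p := 1 / q) (Or.inr (by positivity))
    simpa [L, ← Real.rpow_mul (norm_nonneg _), hq.ne'] using h
  have hT : Tendsto T atTop (𝓝 c) := lp.hasSum_single hp c
  have hLc : Continuous L :=
    (((continuous_norm (E := lp E p)).rpow_const fun _ => Or.inr hq.le).add
      continuous_const).rpow_const fun _ => Or.inr (by positivity)
  refine Metric.tendsto_nhds.2 fun ε hε => ?_
  obtain ⟨s, hs1, hs2⟩ := ((hT.eventually (Metric.ball_mem_nhds c (div_pos hε three_pos))).and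
    (((hLc.tendsto c).comp hT).eventually
      (Metric.ball_mem_nhds (L c) (div_pos hε three_pos)))).exists
  filter_upwards [Metric.tendsto_nhds.1 (hfin s) (ε / 3) (div_pos hε three_pos)] with n hn
  have h1 : dist ‖w n + c‖ ‖w n + T s‖ ≤ dist (T s) c := by
    rw [Real.dist_eq, dist_eq_norm, norm_sub_rev (T s) c]
    refine (abs_norm_sub_norm_le _ _).trans (le_of_eq ?_)
    rw [add_sub_add_left_eq_sub]
  have hs1' : dist (T s) c < ε / 3 := hs1
  have hs2' : dist (L (T s)) (L c) < ε / 3 := hs2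
  calc dist ‖w n + c‖ (L c) ≤ dist ‖w n + c‖ ‖w n + T s‖ + dist ‖w n + T s‖ (L (T s))
        + dist (L (T s)) (L c) := dist_triangle4 _ _ _ _
    _ < ε := by linarith

lemma typed_lp [∀ i, FiniteDimensional ℝ (E i)] (hp : p ≠ ⊤) (U : Ultrafilter ℕ) :
    Typed p.toReal U (lp E p) := by
  classical
  rintro x ⟨C, hC⟩
  have hp0 : p ≠ 0 := (zero_lt_one.trans_le hp1.out).ne'
  have hcoord : ∀ i, ∃ a : E i, Tendsto (fun n => x n i) (U : Filter ℕ) (𝓝 a) := fun i => by
    have : ProperSpace (E i) := FiniteDimensional.proper ℝ (E i)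
    refine exists_lim U (fun n => x n i) (c := 0) (C := C) fun n => ?_
    rw [dist_zero_right]
    exact (lp.norm_apply_le_norm hp0 _ i).trans (hC n)
  choose a ha using hcoord
  have hmem : Memℓp a p := lp.memℓp_of_tendsto (l := (U : Filter ℕ)) (F := x)
    (isBounded_iff_forall_norm_le.2 ⟨C, forall_mem_range.2 hC⟩) (tendsto_pi_nhds.2 ha)
  set e : lp E p := ⟨a, hmem⟩
  obtain ⟨r, hr⟩ := exists_lim U (fun n => ‖x n - e‖) (c := 0) (C := C + ‖e‖) fun n => by
    rw [dist_zero_right, Real.norm_of_nonneg (norm_nonneg _)]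
    exact (norm_sub_le _ _).trans (by linarith [hC n])
  refine ⟨e, r, ge_of_tendsto' hr fun n => norm_nonneg _, fun b => ?_⟩
  have hw : ∀ i, Tendsto (fun n => (x n - e) i) (U : Filter ℕ) (𝓝 0) := fun i => by
    have := (ha i).sub_const (a i)
    simp only [sub_self] at this; exact this
  refine (split hp U (fun n => x n - e) hw hr (e - b)).congr fun n => ?_
  congr 1
  abel

/-- In a space with `l_p` types, a sequence of `l_p` type around `0` is weakly null. -/
lemma weakly_null {Z : Type*} [NormedAddCommGroup Z] [NormedSpace ℝ Z] {q r : ℝ} (hq : 1 < q)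
    (hr : 0 ≤ r) (U : Ultrafilter ℕ) {w : ℕ → Z}
    (hw : ∀ b, Tendsto (fun n => ‖w n - b‖) (U : Filter ℕ) (𝓝 ((‖b‖ ^ q + r ^ q) ^ (1 / q))))
    (φ : Z →L[ℝ] ℝ) {l : ℝ} (hl : Tendsto (fun n => φ (w n)) (U : Filter ℕ) (𝓝 l)) : l ≤ 0 := by
  have hq0 : 0 < q := by linarith
  have hrq : 0 ≤ r ^ q := Real.rpow_nonneg hr q
  refine le_of_forall_pos_le_add fun ε hε => ?_
  rw [zero_add]
  -- choose a large radius
  obtain ⟨M, hM0, hM⟩ : ∃ M : ℝ, 0 < M ∧ ‖φ‖ * (r ^ q / M ^ (q - 1)) ≤ ε / 2 := by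
    have h := ((tendsto_rpow_atTop (by linarith : 0 < q - 1)).inv_tendsto_atTop.const_mul
      (‖φ‖ * r ^ q))
    rw [mul_zero] at h
    obtain ⟨M, h1, h2⟩ := ((h.eventually_lt_const (half_pos hε)).and (eventually_gt_atTop 0)).exists
    refine ⟨M, h2, le_trans (le_of_eq ?_) h1.le⟩
    simp only [Pi.inv_apply]
    ring
  obtain ⟨b, hb1, hb2⟩ : ∃ b : Z, ‖b‖ ≤ M ∧ ‖φ‖ * M - ε / 2 ≤ φ b := by
    by_cases h0 : ‖φ‖ * M ≤ ε / 2
    · exact ⟨0, by simp [hM0.le], by simp; linarith⟩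
    obtain ⟨u, hu1, hu2⟩ := φ.exists_lt_apply_of_lt_opNorm
      (r := ‖φ‖ - ε / (2 * M)) (by linarith [div_pos hε (mul_pos two_pos hM0)])
    rw [Real.norm_eq_abs] at hu2
    have hkey : ∀ v : Z, ‖v‖ < 1 → ‖φ‖ - ε / (2 * M) < φ v →
        ‖M • v‖ ≤ M ∧ ‖φ‖ * M - ε / 2 ≤ φ (M • v) := fun v hv1 hv2 => by
      refine ⟨?_, ?_⟩
      · rw [norm_smul, Real.norm_of_nonneg hM0.le]
        exact mul_le_of_le_one_right hM0.le hv1.le
      · rw [map_smul, smul_eq_mul]
        have := mul_le_mul_of_nonneg_left hv2.le hM0.le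
        have e : M * (ε / (2 * M)) = ε / 2 := by field_simp
        linarith
    rcases abs_choice (φ u) with hc | hc
    · exact ⟨M • u, hkey u hu1 (by linarith)⟩
    · exact ⟨M • -u, hkey (-u) (by rwa [norm_neg]) (by rw [map_neg]; linarith)⟩
  have h1 : φ b + l ≤ ‖φ‖ * (M ^ q + r ^ q) ^ (1 / q) := by
    refine le_trans (le_of_tendsto_of_tendsto' (tendsto_const_nhds.add hl)
      ((hw (-b)).const_mul ‖φ‖) fun n => ?_) ?_
    · rw [← map_add, sub_neg_eq_add, add_comm b]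
      exact (le_abs_self _).trans (φ.le_opNorm _)
    · rw [norm_neg]
      gcongr
  have h2 : (M ^ q + r ^ q) ^ (1 / q) ≤ M + r ^ q / M ^ (q - 1) := by
    have hu : 0 ≤ r ^ q / M ^ q := by positivity
    have e : M ^ q + r ^ q = M ^ q * (1 + r ^ q / M ^ q) := by field_simp
    rw [e, Real.mul_rpow (by positivity) (by positivity), ← Real.rpow_mul hM0.le,
      mul_one_div_cancel hq0.ne', Real.rpow_one]
    refine (mul_le_mul_of_nonneg_left (rpow_one_add_le_one_add_mul_self (by linarith)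
      (by positivity) ((div_le_one hq0).2 hq.le)) hM0.le).trans ?_
    have e2 : M * (r ^ q / M ^ q) = r ^ q / M ^ (q - 1) := by
      rw [Real.rpow_sub hM0, Real.rpow_one]; field_simp
    have hnn : 0 ≤ M * (r ^ q / M ^ q) := by positivity
    have : M * (1 + 1 / q * (r ^ q / M ^ q)) = M + 1 / q * (M * (r ^ q / M ^ q)) := by ring
    rw [this, ← e2]
    linarith [mul_le_of_le_one_left hnn ((div_le_one hq0).2 hq.le)]
  have h3 := mul_le_mul_of_nonneg_left h2 (norm_nonneg φ)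
  linarith

/-- Closed subspaces inherit `l_p` types. -/
lemma typed_of_isometry {Z W : Type*} [NormedAddCommGroup Z] [NormedSpace ℝ Z] [CompleteSpace Z]
    [NormedAddCommGroup W] [NormedSpace ℝ W] (J : Z →ₗᵢ[ℝ] W) {q : ℝ} (hq : 1 < q)
    {U : Ultrafilter ℕ} (hW : Typed q U W) : Typed q U Z := by
  rintro x ⟨C, hC⟩
  obtain ⟨e, r, hr, he⟩ := hW (fun n => J (x n)) ⟨C, fun n => by rw [J.norm_map]; exact hC n⟩
  suffices h : e ∈ LinearMap.range J.toLinearMap by
    obtain ⟨e', rfl⟩ := h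
    refine ⟨e', r, hr, fun b => ?_⟩
    have := he (J b)
    simp only [LinearIsometry.coe_toLinearMap, ← map_sub, J.norm_map] at this
    exact this
  by_contra hne
  have hcl : IsClosed ((LinearMap.range J.toLinearMap : Submodule ℝ W) : Set W) := by
    rw [LinearMap.coe_range]
    exact J.isometry.isClosedEmbedding.isClosed_range
  obtain ⟨φ, u, hφ1, hφ2⟩ := geometric_hahn_banach_closed_point
    (Submodule.convex _) hcl hne
  have hzero : ∀ z, φ (J z) = 0 := fun z => by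
    by_contra hz
    have h := hφ1 (((u + 1) / φ (J z)) • J z) (Submodule.smul_mem _ _ ⟨z, rfl⟩)
    rw [map_smul, smul_eq_mul, div_mul_cancel₀ _ hz] at h
    linarith
  have hu : 0 < u := by simpa using hφ1 0 (Submodule.zero_mem _)
  have hw : ∀ b, Tendsto (fun n => ‖(J (x n) - e) - b‖) (U : Filter ℕ)
      (𝓝 ((‖b‖ ^ q + r ^ q) ^ (1 / q))) := fun b => by
    have h := he (e + b)
    simp only [sub_add_cancel_left, norm_neg] at h
    refine h.congr fun n => ?_
    rw [sub_sub]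
  have h1 := weakly_null hq hr U hw (-φ) (l := φ e) (by simp [hzero])
  linarith

lemma hasNull {Z : Type*} [NormedAddCommGroup Z] [NormedSpace ℝ Z] {q : ℝ} (hq : 0 < q)
    (hd : ¬FiniteDimensional ℝ Z) (ht : Typed q (hyperfilter ℕ) Z) :
    HasNull q (hyperfilter ℕ) Z := by
  obtain ⟨R, x, -, hxR, hsep⟩ := exists_seq_norm_le_one_le_norm_sub (𝕜 := ℝ) hd
  obtain ⟨e, r, hr, he⟩ := ht x ⟨R, hxR⟩
  rcases hr.eq_or_lt with rfl | hr
  · exfalso
    have h := he e
    rw [sub_self, norm_zero, Real.zero_rpow hq.ne', add_zero,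
      Real.zero_rpow (by positivity)] at h
    have hev : {n | ‖x n - e‖ < 1 / 2} ∈ (hyperfilter ℕ : Filter ℕ) :=
      h.eventually_lt_const (by norm_num)
    obtain ⟨m, hm⟩ := Ultrafilter.nonempty_of_mem hev
    obtain ⟨n, hn, hnm⟩ := Ultrafilter.nonempty_of_mem (inter_mem hev
      (Filter.hyperfilter_le_cofinite (mem_cofinite.2 (by simp : ({m}ᶜᶜ : Set ℕ).Finite))))
    have h1 : 1 ≤ ‖x n - x m‖ := hsep (by simpa using hnm)
    have := norm_sub_le_norm_sub_add_norm_sub (x n) e (x m)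
    rw [norm_sub_rev e (x m)] at this
    simp only [Set.mem_ofPred_eq] at hm hn
    linarith
  have hv : ∀ b, Tendsto (fun n => ‖r⁻¹ • (x n - e) - b‖) (hyperfilter ℕ : Filter ℕ)
      (𝓝 ((‖b‖ ^ q + 1) ^ (1 / q))) := fun b => by
    have h := (he (e + r • b)).const_mul r⁻¹
    have e1 : ∀ n, r⁻¹ * ‖x n - (e + r • b)‖ = ‖r⁻¹ • (x n - e) - b‖ := fun n => by
      rw [← Real.norm_of_nonneg (inv_pos.2 hr).le, ← norm_smul,
        Real.norm_of_nonneg (inv_pos.2 hr).le, ← sub_sub, smul_sub _ (x n - e),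
        inv_smul_smul₀ hr.ne']
    have e2 : r⁻¹ * (‖e - (e + r • b)‖ ^ q + r ^ q) ^ (1 / q) = (‖b‖ ^ q + 1) ^ (1 / q) := by
      rw [sub_add_cancel_left, norm_neg, norm_smul, Real.norm_of_nonneg hr.le,
        Real.mul_rpow hr.le (norm_nonneg _), ← mul_add_one,
        Real.mul_rpow (by positivity) (by positivity), ← Real.rpow_mul hr.le,
        mul_one_div_cancel hq.ne', Real.rpow_one, inv_mul_cancel_left₀ hr.ne']
    simp only [e1, e2] at h
    exact h
  obtain ⟨u, hu⟩ : ∃ u : Z, u ≠ 0 := by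
    by_contra! h
    have : x 1 - x 0 = 0 := by rw [h (x 1), h (x 0), sub_zero]
    have h1 : 1 ≤ ‖x 1 - x 0‖ := hsep one_ne_zero
    rw [this, norm_zero] at h1
    linarith
  have hv1 : Tendsto (fun n => ‖r⁻¹ • (x n - e)‖) (hyperfilter ℕ : Filter ℕ) (𝓝 1) := by
    have h := hv 0
    simpa [Real.zero_rpow hq.ne', Real.one_rpow] using h
  obtain ⟨w, hw1, hw⟩ := exists_unit_seq (u₀ := ‖u‖⁻¹ • u)
    (by rw [norm_smul, norm_inv, norm_norm, inv_mul_cancel₀ (norm_ne_zero_iff.2 hu)]) hv1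
  exact ⟨w, hw1, fun b => hw b _ (hv b)⟩

end Vale.Agent.P084.Types
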