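import Vale.Agent.P084.Types.Criterion

/-!
Spaces whose sequence types are of `l_p` type supply twins for the criterion.
-/

open Metric Set Filter Topology

namespace Vale.Agent.P084.Types

variable {X Y : Type*} [NormedAddCommGroup X] [NormedSpace ℝ X] [NormedAddCommGroup Y]
  [NormedSpace ℝ Y]

/-- Along the ultrafilter, every bounded sequence looks like `e` plus an orthogonal `l_p` part. -/
def Typed (p : ℝ) (U : Ultrafilter ℕ) (X : Type*) [NormedAddCommGroup X] : Prop :=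
  ∀ x : ℕ → X, (∃ C, ∀ n, ‖x n‖ ≤ C) → ∃ (e : X) (r : ℝ), 0 ≤ r ∧
    ∀ b, Tendsto (fun n => ‖x n - b‖) (U : Filter ℕ) (𝓝 ((‖e - b‖ ^ p + r ^ p) ^ (1 / p)))

/-- A unit sequence orthogonal, in the sense of `l_p`, to every vector. -/
def HasNull (p : ℝ) (U : Ultrafilter ℕ) (X : Type*) [NormedAddCommGroup X] : Prop :=
  ∃ z : ℕ → X, (∀ n, ‖z n‖ = 1) ∧
    ∀ b, Tendsto (fun n => ‖z n - b‖) (U : Filter ℕ) (𝓝 ((‖b‖ ^ p + 1) ^ (1 / p)))

lemma root_eq {p A B : ℝ} (hp : 0 < p) (hA : 0 ≤ A) (h : A ^ (1 / p) = B) : A = B ^ p := by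
  rw [← h, ← Real.rpow_mul hA, one_div, inv_mul_cancel₀ hp.ne', Real.rpow_one]

lemma radius_le {p α β : ℝ} (hp : 0 < p) (hα : 0 ≤ α) (hβ : 0 ≤ β) (hα1 : α ≤ 1) (hβ1 : β ≤ 1)
    (h : (1 - β) ^ p - β ^ p ≤ (1 - α) ^ p - α ^ p) : α ≤ β := by
  by_contra hc
  have hc : β < α := lt_of_not_ge hc
  have h1 := Real.rpow_lt_rpow (sub_nonneg.2 hα1) (by linarith : 1 - α < 1 - β) hp
  have h2 := Real.rpow_lt_rpow hβ hc hp
  linarith

lemma unit_multiple {u : X} (hu : u ≠ 0) (hu1 : ‖u‖ ≤ 1) :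
    ‖‖u‖⁻¹ • u‖ = 1 ∧ ‖u - ‖u‖⁻¹ • u‖ = 1 - ‖u‖ := by
  have hpos : 0 < ‖u‖ := norm_pos_iff.2 hu
  refine ⟨by rw [norm_smul, norm_inv, norm_norm, inv_mul_cancel₀ hpos.ne'], ?_⟩
  rw [show u - ‖u‖⁻¹ • u = (1 - ‖u‖⁻¹) • u by rw [sub_smul, one_smul], norm_smul,
    Real.norm_eq_abs, abs_of_nonpos (by linarith [(one_le_inv₀ hpos).2 hu1])]
  field_simp
  ring

/-- The two-sided normalisation of a sequence whose norms tend to one. -/
lemma exists_unit_seq {U : Ultrafilter ℕ} {v : ℕ → X} {u₀ : X} (hu₀ : ‖u₀‖ = 1)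
    (hv : Tendsto (fun n => ‖v n‖) (U : Filter ℕ) (𝓝 1)) :
    ∃ w : ℕ → X, (∀ n, ‖w n‖ = 1) ∧ ∀ b l, Tendsto (fun n => ‖v n - b‖) (U : Filter ℕ) (𝓝 l) →
      Tendsto (fun n => ‖w n - b‖) (U : Filter ℕ) (𝓝 l) := by
  classical
  refine ⟨fun n => if v n = 0 then u₀ else ‖v n‖⁻¹ • v n, fun n => ?_, fun b l hb => ?_⟩
  · by_cases h : v n = 0
    · simp [h, hu₀]
    · simp [h, norm_smul, norm_ne_zero_iff.2 h]
  · have h0 : ∀ n, ‖(if v n = 0 then u₀ else ‖v n‖⁻¹ • v n) - v n‖ ≤ |1 - ‖v n‖| := fun n => by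
      by_cases h : v n = 0
      · simp [h, hu₀]
      · have hn : ‖v n‖ ≠ 0 := norm_ne_zero_iff.2 h
        rw [if_neg h, show ‖v n‖⁻¹ • v n - v n = (‖v n‖⁻¹ - 1) • v n by rw [sub_smul, one_smul],
          norm_smul, Real.norm_eq_abs, ← abs_of_nonneg (norm_nonneg (v n)), ← abs_mul,
          abs_of_nonneg (norm_nonneg (v n)), sub_mul, inv_mul_cancel₀ hn, one_mul]
    have hz : Tendsto (fun n => |1 - ‖v n‖|) (U : Filter ℕ) (𝓝 0) := by
      simpa using ((tendsto_const_nhds (x := (1 : ℝ))).sub hv).abs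
    refine tendsto_of_tendsto_of_dist hb (squeeze_zero (fun n => dist_nonneg) (fun n => ?_) hz)
    rw [Real.dist_eq]
    refine (abs_norm_sub_norm_le _ _).trans (le_trans (le_of_eq ?_) (h0 n))
    rw [← norm_neg]
    congr 1
    abel

lemma null_image {p q : ℝ} (hp : 0 < p) (hq : 0 < q) {U : Ultrafilter ℕ}
    {f : sphere (0 : X) 1 → sphere (0 : Y) 1} (hf : Isometry f) (hs : Function.Surjective f)
    (hX : HasNull p U X) (hY : Typed q U Y) : p = q := by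
  obtain ⟨z, hz1, hz⟩ := hX
  set zs : ℕ → sphere (0 : X) 1 := fun n => ⟨z n, mem_sphere_zero_iff_norm.2 (hz1 n)⟩
  obtain ⟨q₀, s, hs0, hy⟩ := hY (fun n => (f (zs n) : Y))
    ⟨1, fun n => (mem_sphere_zero_iff_norm.1 (f (zs n)).2).le⟩
  have e0 : ‖q₀‖ ^ q + s ^ q = 1 := by
    have h := hy 0
    simp only [sub_zero, mem_sphere_zero_iff_norm.1 (f (zs _)).2] at h
    have := root_eq hq (add_nonneg (Real.rpow_nonneg (norm_nonneg _) _) (Real.rpow_nonneg hs0 _))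
      (tendsto_nhds_unique h tendsto_const_nhds)
    rwa [Real.one_rpow] at this
  have e1 : ∀ y : sphere (0 : Y) 1,
      (‖q₀ - y‖ ^ q + s ^ q) ^ (1 / q) = (2 : ℝ) ^ (1 / p) := by
    intro y
    obtain ⟨x, rfl⟩ := hs y
    have h := hz x
    rw [mem_sphere_zero_iff_norm.1 x.2, Real.one_rpow, one_add_one_eq_two] at h
    refine tendsto_nhds_unique (hy (f x)) (h.congr fun n => ?_)
    have := hf.dist_eq (zs n) x
    rw [Subtype.dist_eq, Subtype.dist_eq, dist_eq_norm, dist_eq_norm] at this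
    exact this.symm
  have hq0 : q₀ = 0 := by
    by_contra hne
    set a := ‖q₀‖ with ha
    have hapos : 0 < a := norm_pos_iff.2 hne
    have ha1 : a ≤ 1 := by
      by_contra hc
      have := Real.one_lt_rpow (lt_of_not_ge hc) hq
      linarith [Real.rpow_nonneg hs0 q]
    have hy1 : ‖a⁻¹ • q₀‖ = 1 := by
      rw [norm_smul, norm_inv, Real.norm_of_nonneg hapos.le, inv_mul_cancel₀ hapos.ne']
    have h1 := e1 ⟨_, mem_sphere_zero_iff_norm.2 hy1⟩
    have h2 := e1 ⟨-(a⁻¹ • q₀), mem_sphere_zero_iff_norm.2 (by rw [norm_neg, hy1])⟩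
    rw [← h2] at h1
    have n1 : ‖q₀ - a⁻¹ • q₀‖ = 1 - a := by
      rw [show q₀ - a⁻¹ • q₀ = (1 - a⁻¹) • q₀ by rw [sub_smul, one_smul], norm_smul,
        Real.norm_eq_abs, abs_of_nonpos (by linarith [(one_le_inv₀ hapos).2 ha1]), ← ha]
      field_simp
      ring
    have n2 : ‖q₀ - -(a⁻¹ • q₀)‖ = 1 + a := by
      rw [show q₀ - -(a⁻¹ • q₀) = (1 + a⁻¹) • q₀ by rw [add_smul, one_smul, sub_neg_eq_add],
        norm_smul, Real.norm_eq_abs, abs_of_pos (by positivity), ← ha]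
      field_simp
      ring
    simp only [n1, n2] at h1
    have h3 := Real.rpow_lt_rpow (sub_nonneg.2 ha1) (by linarith : 1 - a < 1 + a) hq
    have hsq := Real.rpow_nonneg hs0 q
    have h4 : ((1 - a) ^ q + s ^ q) ^ (1 / q) < ((1 + a) ^ q + s ^ q) ^ (1 / q) :=
      Real.rpow_lt_rpow (add_nonneg (Real.rpow_nonneg (sub_nonneg.2 ha1) _) hsq) (by linarith)
        (by positivity)
    linarith
  subst hq0
  obtain ⟨y⟩ : Nonempty (sphere (0 : Y) 1) := ⟨f (zs 0)⟩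
  have h := e1 y
  rw [zero_sub, norm_neg, mem_sphere_zero_iff_norm.1 y.2, Real.one_rpow] at h
  rw [norm_zero, Real.zero_rpow hq.ne', zero_add] at e0
  rw [e0, one_add_one_eq_two] at h
  by_contra hne
  rcases lt_or_gt_of_ne hne with hlt | hlt
  · exact absurd h (ne_of_lt (Real.rpow_lt_rpow_of_exponent_lt one_lt_two
      (one_div_lt_one_div_of_lt hp hlt)))
  · exact absurd h.symm (ne_of_lt (Real.rpow_lt_rpow_of_exponent_lt one_lt_two
      (one_div_lt_one_div_of_lt hq hlt)))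

lemma exists_twin {p : ℝ} (hp : 1 ≤ p) {U : Ultrafilter ℕ}
    {f : sphere (0 : X) 1 → sphere (0 : Y) 1} (hf : Isometry f) (hs : Function.Surjective f)
    (hX : HasNull p U X) (hY : Typed p U Y) (e : X) (he : ‖e‖ ≤ 1) :
    ∃ q : Y, ‖q‖ = ‖e‖ ∧ Twin f e q := by
  have hp0 : 0 < p := by linarith
  rcases he.lt_or_eq with he1 | he1
  swap
  · refine ⟨f ⟨e, mem_sphere_zero_iff_norm.2 he1⟩, ?_, fun x => ?_⟩
    · rw [mem_sphere_zero_iff_norm.1 (f _).2, he1]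
    · have := hf.dist_eq ⟨e, mem_sphere_zero_iff_norm.2 he1⟩ x
      rwa [Subtype.dist_eq, Subtype.dist_eq, dist_eq_norm, dist_eq_norm] at this
  obtain ⟨z, hz1, hz⟩ := hX
  set t := (1 - ‖e‖ ^ p) ^ (1 / p) with ht
  have hep : ‖e‖ ^ p < 1 := Real.rpow_lt_one (norm_nonneg e) he1 hp0
  have ht0 : 0 < t := Real.rpow_pos_of_pos (by linarith) _
  have htp : t ^ p = 1 - ‖e‖ ^ p := (root_eq hp0 (by linarith) rfl).symm
  -- the type of `e + t • z n`
  have hv : ∀ b, Tendsto (fun n => ‖e + t • z n - b‖) (U : Filter ℕ)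
      (𝓝 ((‖e - b‖ ^ p + t ^ p) ^ (1 / p))) := by
    intro b
    have h := ((hz (t⁻¹ • (b - e))).const_mul t)
    have e1 : ∀ n, t * ‖z n - t⁻¹ • (b - e)‖ = ‖e + t • z n - b‖ := fun n => by
      rw [← Real.norm_of_nonneg ht0.le, ← norm_smul, Real.norm_of_nonneg ht0.le, smul_sub,
        smul_inv_smul₀ ht0.ne']
      congr 1
      abel
    have e2 : t * (‖t⁻¹ • (b - e)‖ ^ p + 1) ^ (1 / p) = (‖e - b‖ ^ p + t ^ p) ^ (1 / p) := by
      have hA : 0 ≤ ‖t⁻¹ • (b - e)‖ ^ p + 1 := by positivity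
      rw [show t * (‖t⁻¹ • (b - e)‖ ^ p + 1) ^ (1 / p) =
        (t ^ p) ^ (1 / p) * (‖t⁻¹ • (b - e)‖ ^ p + 1) ^ (1 / p) by
          rw [← Real.rpow_mul ht0.le, mul_one_div_cancel hp0.ne', Real.rpow_one],
        ← Real.mul_rpow (Real.rpow_nonneg ht0.le _) hA, mul_add, mul_one, norm_smul, norm_inv,
        Real.norm_of_nonneg ht0.le, Real.mul_rpow (by positivity) (norm_nonneg _), ← mul_assoc,
        ← Real.mul_rpow ht0.le (by positivity), mul_inv_cancel₀ ht0.ne', Real.one_rpow, one_mul,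
        norm_sub_rev]
    simp only [e1, e2] at h
    exact h
  have hv1 : Tendsto (fun n => ‖e + t • z n‖) (U : Filter ℕ) (𝓝 1) := by
    have h := hv 0
    simp only [sub_zero, htp, add_sub_cancel, Real.one_rpow] at h
    exact h
  obtain ⟨w, hw1, hw⟩ := exists_unit_seq (hz1 0) hv1
  set ws : ℕ → sphere (0 : X) 1 := fun n => ⟨w n, mem_sphere_zero_iff_norm.2 (hw1 n)⟩
  obtain ⟨q, s, hs0, hy⟩ := hY (fun n => (f (ws n) : Y))
    ⟨1, fun n => (mem_sphere_zero_iff_norm.1 (f (ws n)).2).le⟩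
  have e0 : ‖q‖ ^ p + s ^ p = 1 := by
    have h := hy 0
    simp only [sub_zero, mem_sphere_zero_iff_norm.1 (f (ws _)).2] at h
    have := root_eq hp0 (add_nonneg (Real.rpow_nonneg (norm_nonneg _) _) (Real.rpow_nonneg hs0 _))
      (tendsto_nhds_unique h tendsto_const_nhds)
    rwa [Real.one_rpow] at this
  have e1 : ∀ x : sphere (0 : X) 1,
      ‖q - f x‖ ^ p + s ^ p = ‖e - x‖ ^ p + (1 - ‖e‖ ^ p) := by
    intro x
    have h : (‖q - f x‖ ^ p + s ^ p) ^ (1 / p) = (‖e - x‖ ^ p + t ^ p) ^ (1 / p) := by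
      refine tendsto_nhds_unique (hy (f x)) ((hw x _ (hv x)).congr fun n => ?_)
      have := hf.dist_eq (ws n) x
      rw [Subtype.dist_eq, Subtype.dist_eq, dist_eq_norm, dist_eq_norm] at this
      exact this.symm
    rw [← htp]
    exact (Real.rpow_left_inj (by positivity) (by positivity) (by positivity)).1 h
  have hq1 : ‖q‖ ≤ 1 := by
    by_contra hc
    have := Real.one_lt_rpow (lt_of_not_ge hc) hp0
    linarith [Real.rpow_nonneg hs0 p]
  have hle : ‖e‖ ≤ ‖q‖ := by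
    rcases eq_or_ne e 0 with rfl | hne
    · simp
    obtain ⟨hx1, hx2⟩ := unit_multiple hne he1.le
    have h := e1 ⟨_, mem_sphere_zero_iff_norm.2 hx1⟩
    rw [hx2] at h
    have h2 := norm_sub_norm_le (f ⟨_, mem_sphere_zero_iff_norm.2 hx1⟩ : Y) q
    rw [mem_sphere_zero_iff_norm.1 (f _).2, norm_sub_rev] at h2
    have h3 := Real.rpow_le_rpow (sub_nonneg.2 hq1) h2 hp0.le
    exact radius_le hp0 (norm_nonneg e) (norm_nonneg q) he1.le hq1 (by linarith)
  have hge : ‖q‖ ≤ ‖e‖ := by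
    rcases eq_or_ne q 0 with rfl | hne
    · simp
    obtain ⟨hy1, hy2⟩ := unit_multiple hne hq1
    obtain ⟨x, hx⟩ := hs ⟨_, mem_sphere_zero_iff_norm.2 hy1⟩
    have h := e1 x
    rw [hx, hy2] at h
    have h2 := norm_sub_norm_le (x : X) e
    rw [mem_sphere_zero_iff_norm.1 x.2, norm_sub_rev] at h2
    have h3 := Real.rpow_le_rpow (sub_nonneg.2 he1.le) h2 hp0.le
    exact radius_le hp0 (norm_nonneg q) (norm_nonneg e) hq1 he1.le (by linarith)
  have heq : ‖q‖ = ‖e‖ := le_antisymm hge hle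
  refine ⟨q, heq, fun x => (Real.rpow_left_inj (norm_nonneg _) (norm_nonneg _) hp0.ne').1 ?_⟩
  have := e1 x
  rw [heq] at e0
  show ‖q - f x‖ ^ p = ‖e - x‖ ^ p
  linarith

/-- Tingley's problem between spaces of `l_p` type. -/
theorem linear_of_typed {p q : ℝ} (hp : 1 ≤ p) (hq : 1 ≤ q) {U : Ultrafilter ℕ}
    (hXn : HasNull p U X) (hXt : Typed p U X) (hYn : HasNull q U Y) (hYt : Typed q U Y)
    (f : sphere (0 : X) 1 → sphere (0 : Y) 1) (hf : Isometry f) (hs : Function.Surjective f) :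
    ∃ T : X ≃ₗᵢ[ℝ] Y, ∀ x : sphere (0 : X) 1, T (x : X) = (f x : Y) := by
  obtain rfl : p = q := null_image (by linarith) (by linarith) hf hs hXn hYt
  set g := Function.surjInv hs
  have hg : ∀ y, f (g y) = y := Function.surjInv_eq hs
  have hgi : Isometry g := Isometry.of_dist_eq fun a b => by rw [← hf.dist_eq, hg, hg]
  have hgs : Function.Surjective g := fun x => ⟨f x, hf.injective (hg _)⟩
  refine linear_of_twins f hf hs (exists_twin hp hf hs hXn hYt) fun q hq => ?_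
  obtain ⟨e, he, ht⟩ := exists_twin hp hgi hgs hYn hXt q hq
  refine ⟨e, he, fun x => ?_⟩
  obtain ⟨y, rfl⟩ := hgs x
  rw [hg]
  exact (ht y).symm

end Vale.Agent.P084.Types
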